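/-
S0170 team project, WP-A3 support (helper84): `Computable` versions of the list combinators that
Mathlib only provides for `Primrec` (fold, map, flatMap, sum), plus a few small computability
lemmas (`Fin n → σ` from components, natural powers, sums over ranges).  Imports Mathlib only.
-/
import Mathlib

set_option autoImplicit false

namespace Crest.Agent.Helper84

open Computable

section lists

variable {α β σ : Type*} [Primcodable α] [Primcodable β] [Primcodable σ]

omit [Primcodable β] [Primcodable σ] in
/-- auxiliary: the `Nat.rec` form of a left fold. -/
theorem natRec_eq_foldl_take (l : List β) (init : σ) (step : σ → β → σ) (n : ℕ) :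
    Nat.rec (motive := fun _ => σ) init
      (fun k IH => Option.casesOn (motive := fun _ => σ) l[k]? IH (fun b => step IH b)) n
      = (l.take n).foldl step init := by
  induction n with
  | zero => simp
  | succ n ih =>
    rw [List.take_add_one, List.foldl_append, ← ih]
    cases h : l[n]? <;> simp [h]

/-- Left fold with a computable step function is computable. -/
theorem computable_list_foldl {f : α → List β} {g : α → σ} {h : α → σ × β → σ}
    (hf : Computable f) (hg : Computable g) (hh : Computable₂ h) :
    Computable fun a => (f a).foldl (fun s b => h a (s, b)) (g a) := by
  have hstep : Computable₂ (fun (a : α) (p : ℕ × σ) =>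
      Option.casesOn (motive := fun _ => σ) ((f a)[p.1]?) p.2 (fun b => h a (p.2, b))) := by
    refine Computable.option_casesOn (σ := σ)
      (o := fun x : α × (ℕ × σ) => (f x.1)[x.2.1]?)
      (f := fun x : α × (ℕ × σ) => x.2.2)
      (g := fun (x : α × (ℕ × σ)) (b : β) => h x.1 (x.2.2, b)) ?_ ?_ ?_
    · exact Computable.list_getElem?.comp (hf.comp Computable.fst)
        (Computable.fst.comp Computable.snd)
    · exact Computable.snd.comp Computable.snd
    · exact hh.comp (Computable.fst.comp Computable.fst)
        ((Computable.snd.comp (Computable.snd.comp Computable.fst)).pair Computable.snd)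
  have hF := Computable.nat_rec (Computable.list_length.comp hf) hg hstep
  refine hF.of_eq fun a => ?_
  have := natRec_eq_foldl_take (f a) (g a) (fun s b => h a (s, b)) (f a).length
  rw [List.take_length] at this
  exact this

omit [Primcodable β] [Primcodable σ] in
theorem foldl_concat_eq_map (l : List β) (g : β → σ) (init : List σ) :
    l.foldl (fun acc b => acc ++ [g b]) init = init ++ l.map g := by
  induction l generalizing init with
  | nil => simp
  | cons b l ih => simp [ih]

/-- `List.map` with a computable function is computable. -/
theorem computable_list_map {f : α → List β} {g : α → β → σ}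
    (hf : Computable f) (hg : Computable₂ g) :
    Computable fun a => (f a).map (g a) := by
  have h1 : Computable₂ (fun (a : α) (p : List σ × β) => p.1 ++ [g a p.2]) :=
    Computable.list_concat.comp (Computable.fst.comp Computable.snd)
      (hg.comp Computable.fst (Computable.snd.comp Computable.snd))
  refine (computable_list_foldl hf (Computable.const ([] : List σ)) h1).of_eq fun a => ?_
  simpa using foldl_concat_eq_map (f a) (g a) []

omit [Primcodable β] [Primcodable σ] in
theorem foldl_append_eq_flatMap (l : List β) (g : β → List σ) (init : List σ) :
    l.foldl (fun acc b => acc ++ g b) init = init ++ l.flatMap g := by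
  induction l generalizing init with
  | nil => simp
  | cons b l ih => simp [ih]

/-- `List.flatMap` with a computable function is computable. -/
theorem computable_list_flatMap {f : α → List β} {g : α → β → List σ}
    (hf : Computable f) (hg : Computable₂ g) :
    Computable fun a => (f a).flatMap (g a) := by
  have h1 : Computable₂ (fun (a : α) (p : List σ × β) => p.1 ++ g a p.2) :=
    Computable.list_append.comp (Computable.fst.comp Computable.snd)
      (hg.comp Computable.fst (Computable.snd.comp Computable.snd))
  refine (computable_list_foldl hf (Computable.const ([] : List σ)) h1).of_eq fun a => ?_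
  simpa using foldl_append_eq_flatMap (f a) (g a) []

/-- Right fold with a computable step function is computable. -/
theorem computable_list_foldr {f : α → List β} {g : α → σ} {h : α → β × σ → σ}
    (hf : Computable f) (hg : Computable g) (hh : Computable₂ h) :
    Computable fun a => (f a).foldr (fun b s => h a (b, s)) (g a) := by
  have h1 : Computable₂ (fun (a : α) (p : σ × β) => h a (p.2, p.1)) :=
    hh.comp Computable.fst
      ((Computable.snd.comp Computable.snd).pair (Computable.fst.comp Computable.snd))
  refine (computable_list_foldl (Computable.list_reverse.comp hf) hg h1).of_eq fun a => ?_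
  simp [List.foldl_reverse]

omit [Primcodable β] in
theorem foldl_add_eq_sum {M : Type*} [AddCommMonoid M] (l : List β) (g : β → M) (init : M) :
    l.foldl (fun s b => s + g b) init = init + (l.map g).sum := by
  induction l generalizing init with
  | nil => simp
  | cons b l ih => simp [ih, add_assoc]

/-- Sums over lists: if addition on `M` is computable, so is `a ↦ ∑ b ∈ f a, g a b`. -/
theorem computable_list_sum {M : Type*} [AddCommMonoid M] [Primcodable M]
    (hadd : Computable₂ (fun x y : M => x + y))
    {f : α → List β} {g : α → β → M} (hf : Computable f) (hg : Computable₂ g) :
    Computable fun a => ((f a).map (g a)).sum := by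
  have h1 : Computable₂ (fun (a : α) (p : M × β) => p.1 + g a p.2) :=
    hadd.comp (Computable.fst.comp Computable.snd)
      (hg.comp Computable.fst (Computable.snd.comp Computable.snd))
  refine (computable_list_foldl hf (Computable.const (0 : M)) h1).of_eq fun a => ?_
  simpa using foldl_add_eq_sum (f a) (g a) 0

/-- Sums over `Finset.range`. -/
theorem computable_sum_range {M : Type*} [AddCommMonoid M] [Primcodable M]
    (hadd : Computable₂ (fun x y : M => x + y))
    {f : α → ℕ} {g : α → ℕ → M} (hf : Computable f) (hg : Computable₂ g) :
    Computable fun a => ∑ i ∈ Finset.range (f a), g a i := by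
  have h1 : Computable fun a => List.range (f a) := Primrec.list_range.to_comp.comp hf
  refine (computable_list_sum hadd h1 hg).of_eq fun a => ?_
  rw [Finset.sum_range, ← List.sum_ofFn]
  congr 1
  apply List.ext_getElem
  · simp
  · intro i h1 h2
    simp

/-- A function into `Fin n → σ` is computable as soon as all its components are. -/
theorem computable_pi {n : ℕ} {f : α → Fin n → σ} (hf : ∀ i, Computable fun a => f a i) :
    Computable f :=
  (Primrec.vector_get'.to_comp.comp (Computable.vector_ofFn hf)).of_eq fun a => by
    funext i; simp

end lists

theorem computable_nat_add : Computable₂ (fun a b : ℕ => a + b) := Primrec.nat_add.to_comp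
theorem computable_nat_mul : Computable₂ (fun a b : ℕ => a * b) := Primrec.nat_mul.to_comp

/-- natural powers are computable -/
theorem computable_nat_pow : Computable₂ (fun a b : ℕ => a ^ b) := by
  have h : Computable₂ (fun (a : ℕ) (p : ℕ × ℕ) => p.2 * a) :=
    computable_nat_mul.comp (Computable.snd.comp Computable.snd) Computable.fst
  have := Computable.nat_rec (α := ℕ × ℕ) (f := fun p => p.2) (g := fun _ => 1)
    (h := fun p q => q.2 * p.1) Computable.snd (Computable.const 1)
    (computable_nat_mul.comp (Computable.snd.comp Computable.snd)
      (Computable.fst.comp Computable.fst))
  refine this.of_eq fun p => ?_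
  induction p.2 with
  | zero => simp
  | succ n ih => simp only [ih, pow_succ]

end Crest.Agent.Helper84
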