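/-
S0170 team project, WP-A3 (helper84): the ANALYSIS half of the finite-difference lemma.
Iterated difference quotients `fdOp h ds F` approximate `mixedDeriv ds F` with error
`h * Σ_i C (dbl ds i)`, where `dbl ds i` is `ds` with its `i`-th entry doubled and `C` bounds the
mixed derivatives of `F`.
-/
import Crest.Agent.Helper21.BoxFlow.MixedDeriv

set_option autoImplicit false
open scoped ContDiff
open Crest.AnalysisR.BoxFlow Crest.Agent.Helper21

namespace Crest.Agent.Helper84

/-- The difference quotient of a field in the direction `d` with step `h`. -/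
noncomputable def diffQ (h : ℝ) (d : Fin 4) (G : Field) : Field :=
  fun p => (1 / h) • (G (p + h • direction d) - G p)

/-- Iterated difference quotients along a list of directions. -/
noncomputable def fdOp (h : ℝ) : List (Fin 4) → Field → Field
  | [], G => G
  | d :: ds, G => fdOp h ds (diffQ h d G)

/-- The list `ds` with its `i`-th entry doubled. -/
def dbl (ds : List (Fin 4)) (i : ℕ) : List (Fin 4) := ds.take (i + 1) ++ ds.drop i

theorem dbl_cons_zero (d : Fin 4) (ds : List (Fin 4)) : dbl (d :: ds) 0 = d :: d :: ds := by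
  simp [dbl]

theorem dbl_cons_succ (d : Fin 4) (ds : List (Fin 4)) (i : ℕ) :
    dbl (d :: ds) (i + 1) = d :: dbl ds i := by
  simp [dbl]

theorem dbl_length (ds : List (Fin 4)) (i : ℕ) (hi : i < ds.length) :
    (dbl ds i).length = ds.length + 1 := by
  simp only [dbl, List.length_append, List.length_take, List.length_drop]
  omega

theorem diffQ_contDiff {G : Field} (hG : ContDiff ℝ ∞ G) (h : ℝ) (d : Fin 4) :
    ContDiff ℝ ∞ (diffQ h d G) := by
  unfold diffQ
  have h1 : ContDiff ℝ ∞ (fun p : ℝ × Sp => G (p + h • direction d)) :=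
    hG.comp (contDiff_id.add contDiff_const)
  exact (h1.sub hG).const_smul (1 / h)

/-- Difference quotients commute with mixed derivatives. -/
theorem mixedDeriv_diffQ {G : Field} (hG : ContDiff ℝ ∞ G) (h : ℝ) (d : Fin 4)
    (es : List (Fin 4)) :
    mixedDeriv es (diffQ h d G) = diffQ h d (mixedDeriv es G) := by
  have h1 : ContDiff ℝ ∞ (fun p : ℝ × Sp => G (p + h • direction d)) :=
    hG.comp (contDiff_id.add contDiff_const)
  unfold diffQ
  rw [mixedDeriv_const_smul (h1.sub hG), mixedDeriv_sub h1 hG, mixedDeriv_comp_add]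

/-- The derivative of a smooth field along a coordinate line. -/
theorem hasDerivAt_line {H : Field} (hH : Differentiable ℝ H) (p : ℝ × Sp) (d : Fin 4) (j : Fin 3)
    (s : ℝ) :
    HasDerivAt (fun s : ℝ => H (p + s • direction d) j)
      (mixedDeriv [d] H (p + s • direction d) j) s := by
  have h1 : HasDerivAt (fun s : ℝ => p + s • direction d) (direction d) s := by
    have := ((hasDerivAt_id s).smul_const (direction d)).const_add p
    simpa using this
  have h2 : HasFDerivAt H (fderiv ℝ H (p + s • direction d)) (p + s • direction d) :=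
    (hH _).hasFDerivAt
  have h3 : HasDerivAt (fun s : ℝ => H (p + s • direction d))
      (fderiv ℝ H (p + s • direction d) (direction d)) s := h2.comp_hasDerivAt s h1
  exact (hasDerivAt_pi.mp h3) j

/-- Mean value bound for a difference quotient. -/
theorem abs_diffQ_le {H : Field} (hH : ContDiff ℝ ∞ H) (h : ℝ) (hh : 0 < h) (d : Fin 4) (j : Fin 3)
    (B : ℝ) (hB : ∀ q, |mixedDeriv [d] H q j| ≤ B) (p : ℝ × Sp) :
    |diffQ h d H p j| ≤ B := by
  have hdiff : Differentiable ℝ H := hH.differentiable (by simp)
  have key := Convex.norm_image_sub_le_of_norm_deriv_le (s := Set.univ)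
    (f := fun s : ℝ => H (p + s • direction d) j) (C := B) (x := 0) (y := h)
    (fun s _ => (hasDerivAt_line hdiff p d j s).differentiableAt)
    (fun s _ => by
      rw [(hasDerivAt_line hdiff p d j s).deriv, Real.norm_eq_abs]
      exact hB _)
    convex_univ (Set.mem_univ _) (Set.mem_univ _)
  simp only [zero_smul, add_zero, sub_zero, Real.norm_eq_abs, abs_of_pos hh] at key
  unfold diffQ
  simp only [Pi.smul_apply, Pi.sub_apply, smul_eq_mul]
  rw [abs_mul, abs_of_pos (by positivity : (0:ℝ) < 1 / h)]
  rw [one_div, inv_mul_le_iff₀ hh]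
  linarith [key, mul_comm B h]

/-- Second order bound: difference quotient minus derivative. -/
theorem abs_diffQ_sub_le {H : Field} (hH : ContDiff ℝ ∞ H) (h : ℝ) (hh : 0 < h) (d : Fin 4)
    (j : Fin 3) (B : ℝ) (hB : ∀ q, |mixedDeriv [d, d] H q j| ≤ B) (p : ℝ × Sp) :
    |diffQ h d H p j - mixedDeriv [d] H p j| ≤ h * B := by
  have hdiff : Differentiable ℝ H := hH.differentiable (by simp)
  have hH1 : ContDiff ℝ ∞ (mixedDeriv [d] H) := mixedDeriv_contDiff hH [d]
  have hdiff1 : Differentiable ℝ (mixedDeriv [d] H) := hH1.differentiable (by simp)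
  have hB0 : 0 ≤ B := le_trans (abs_nonneg _) (hB p)
  -- first derivative along the line varies by at most `B * s`
  have hφ' : ∀ s : ℝ, |mixedDeriv [d] H (p + s • direction d) j - mixedDeriv [d] H p j|
      ≤ B * |s| := by
    intro s
    have key := Convex.norm_image_sub_le_of_norm_deriv_le (s := Set.univ)
      (f := fun s : ℝ => mixedDeriv [d] H (p + s • direction d) j) (C := B) (x := 0) (y := s)
      (fun s _ => (hasDerivAt_line hdiff1 p d j s).differentiableAt)
      (fun s _ => by
        rw [(hasDerivAt_line hdiff1 p d j s).deriv, Real.norm_eq_abs]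
        exact hB _)
      convex_univ (Set.mem_univ _) (Set.mem_univ _)
    simpa using key
  -- ψ(s) = φ(s) - s φ'(0)
  have hψ : ∀ s : ℝ, HasDerivAt
      (fun s : ℝ => H (p + s • direction d) j - s * mixedDeriv [d] H p j)
      (mixedDeriv [d] H (p + s • direction d) j - mixedDeriv [d] H p j) s := by
    intro s
    have h1 := hasDerivAt_line hdiff p d j s
    have h2 : HasDerivAt (fun s : ℝ => s * mixedDeriv [d] H p j) (mixedDeriv [d] H p j) s := by
      simpa using (hasDerivAt_id s).mul_const (mixedDeriv [d] H p j)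
    exact h1.sub h2
  have key := Convex.norm_image_sub_le_of_norm_deriv_le (s := Set.Icc (0:ℝ) h)
    (f := fun s : ℝ => H (p + s • direction d) j - s * mixedDeriv [d] H p j) (C := B * h)
    (x := 0) (y := h)
    (fun s _ => (hψ s).differentiableAt)
    (fun s hs => by
      rw [(hψ s).deriv, Real.norm_eq_abs]
      refine (hφ' s).trans ?_
      rw [abs_of_nonneg hs.1]
      exact mul_le_mul_of_nonneg_left hs.2 hB0)
    (convex_Icc 0 h) (Set.left_mem_Icc.mpr hh.le) (Set.right_mem_Icc.mpr hh.le)
  simp only [zero_smul, add_zero, zero_mul, sub_zero, Real.norm_eq_abs, abs_of_pos hh] at key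
  unfold diffQ
  simp only [Pi.smul_apply, Pi.sub_apply, smul_eq_mul]
  have e : 1 / h * (H (p + h • direction d) j - H p j) - mixedDeriv [d] H p j
      = 1 / h * (H (p + h • direction d) j - h * mixedDeriv [d] H p j - H p j) := by
    field_simp
    ring
  rw [e, abs_mul, abs_of_pos (by positivity : (0:ℝ) < 1 / h), one_div, inv_mul_le_iff₀ hh]
  nlinarith [key]

/-- The generalised induction statement behind `fd_error`. -/
theorem fd_error_aux (h : ℝ) (hh : 0 < h) (j : Fin 3) :
    ∀ (ds : List (Fin 4)) (G : Field), ContDiff ℝ ∞ G → ∀ c : ℕ → ℝ,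
      (∀ i, i < ds.length → ∀ p, |mixedDeriv (dbl ds i) G p j| ≤ c i) →
      ∀ p, |fdOp h ds G p j - mixedDeriv ds G p j| ≤ h * ∑ i ∈ Finset.range ds.length, c i := by
  intro ds
  induction ds with
  | nil =>
    intro G _ c _ p
    simp [fdOp, mixedDeriv]
  | cons d ds ih =>
    intro G hG c hc p
    have hG' : ContDiff ℝ ∞ (diffQ h d G) := diffQ_contDiff hG h d
    -- first part: induction hypothesis for the difference quotient
    have h1 : |fdOp h ds (diffQ h d G) p j - mixedDeriv ds (diffQ h d G) p j|
        ≤ h * ∑ i ∈ Finset.range ds.length, c (i + 1) := by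
      refine ih (diffQ h d G) hG' (fun i => c (i + 1)) ?_ p
      intro i hi q
      rw [mixedDeriv_diffQ hG]
      refine abs_diffQ_le (mixedDeriv_contDiff hG _) h hh d j (c (i + 1)) ?_ q
      intro q'
      have := hc (i + 1) (by simpa using hi) q'
      rw [dbl_cons_succ] at this
      exact this
    -- second part: one difference quotient versus one derivative
    have h2 : |mixedDeriv ds (diffQ h d G) p j - mixedDeriv (d :: ds) G p j| ≤ h * c 0 := by
      rw [mixedDeriv_diffQ hG]
      refine abs_diffQ_sub_le (mixedDeriv_contDiff hG ds) h hh d j (c 0) ?_ p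
      intro q
      have := hc 0 (by simp) q
      rw [dbl_cons_zero] at this
      exact this
    have e : fdOp h (d :: ds) G p j - mixedDeriv (d :: ds) G p j
        = (fdOp h ds (diffQ h d G) p j - mixedDeriv ds (diffQ h d G) p j)
          + (mixedDeriv ds (diffQ h d G) p j - mixedDeriv (d :: ds) G p j) := by
      simp only [fdOp]
      ring
    rw [e]
    refine (abs_add_le _ _).trans ?_
    rw [List.length_cons, Finset.sum_range_succ', mul_add]
    exact add_le_add h1 h2

/-- **Finite-difference error estimate.** -/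
theorem fd_error (F : Field) (hF : ContDiff ℝ ∞ F) (C : List (Fin 4) → ℝ)
    (hC : ∀ (ds : List (Fin 4)) (p : ℝ × (Fin 3 → ℝ)) (j : Fin 3), |mixedDeriv ds F p j| ≤ C ds)
    (h : ℝ) (hh : 0 < h) (ds : List (Fin 4)) (p : ℝ × (Fin 3 → ℝ)) (j : Fin 3) :
    |fdOp h ds F p j - mixedDeriv ds F p j|
      ≤ h * ∑ i ∈ Finset.range ds.length, C (dbl ds i) :=
  fd_error_aux h hh j ds F hF (fun i => C (dbl ds i)) (fun _ _ q => hC _ q j) p

end Crest.Agent.Helper84
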