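/-
S0170 team project, WP-A3 (helper84): the finite-difference EVALUATOR, its correctness and its
computability, and the final statement `effective_of_values_bounds`
(= `Crest.Agent.Helper21.Spec.effective_of_values_bounds`).
-/
import Crest.Agent.Helper21.BoxFlow.MixedDeriv
import Crest.Agent.Helper82.RatComp
import Crest.Agent.Helper84.BoxFlow.CompList
import Crest.Agent.Helper84.BoxFlow.FDAnalysis

set_option autoImplicit false
open scoped ContDiff
open Crest.AnalysisR.BoxFlow Crest.Agent.Helper21

namespace Crest.Agent.Helper84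

/-- Rational space-time points. -/
abbrev QPt : Type := ℚ × (Fin 3 → ℚ)

/-- The real space-time point with the given rational coordinates. -/
def toR (p : QPt) : ℝ × (Fin 3 → ℝ) := ((p.1 : ℝ), ratPoint p.2)

/-- The rational coordinate directions. -/
def dirQ (d : Fin 4) : QPt := if h : d = 0 then (1, 0) else (0, Pi.single (d.pred h) 1)

theorem toR_zero : toR 0 = 0 := by
  ext <;> simp [toR, ratPoint]

theorem toR_add (p v : QPt) : toR (p + v) = toR p + toR v := by
  ext <;> simp [toR, ratPoint]

theorem toR_smul_dirQ (h : ℚ) (d : Fin 4) : toR (h • dirQ d) = (h : ℝ) • direction d := by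
  unfold dirQ direction
  split_ifs with h0
  · ext <;> simp [toR, ratPoint]
  · ext i
    · simp [toR]
    · simp only [toR, ratPoint, Prod.smul_mk, Pi.smul_apply, smul_eq_mul]
      by_cases hi : i = d.pred h0
      · subst hi; simp
      · simp [Pi.single_eq_of_ne hi]

/-- One step of the expansion of an iterated difference quotient into a signed sum of values. -/
def stepT (h : ℚ) (d : Fin 4) (cv : ℚ × QPt) : List (ℚ × QPt) :=
  [(cv.1 / h, cv.2 + h • dirQ d), (-(cv.1 / h), cv.2)]

/-- The (coefficient, shift) pairs of the iterated difference quotient with step `h` along `ds`. -/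
def fdTerms (h : ℚ) : List (Fin 4) → List (ℚ × QPt)
  | [] => [(1, 0)]
  | d :: ds => (fdTerms h ds).flatMap (stepT h d)

theorem sum_map_flatMap {α β : Type*} (l : List α) (f : α → List β) (g : β → ℝ) :
    ((l.flatMap f).map g).sum = (l.map fun x => ((f x).map g).sum).sum := by
  induction l with
  | nil => simp
  | cons a l ih => simp [List.flatMap_cons, List.map_append, List.sum_append, ih]

/-- The iterated difference quotient is a signed sum of values. -/
theorem fdOp_apply_eq_sum (h : ℚ) (ds : List (Fin 4)) (G : Field) (p : ℝ × (Fin 3 → ℝ))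
    (j : Fin 3) :
    fdOp (h : ℝ) ds G p j
      = ((fdTerms h ds).map fun cv => (cv.1 : ℝ) * G (p + toR cv.2) j).sum := by
  induction ds generalizing G with
  | nil => simp [fdOp, fdTerms, toR_zero]
  | cons d ds ih =>
    simp only [fdOp, fdTerms]
    rw [ih, sum_map_flatMap]
    congr 1
    apply List.map_congr_left
    intro cv _
    simp only [stepT, diffQ, List.map_cons, List.map_nil, List.sum_cons, List.sum_nil, add_zero,
      toR_add, toR_smul_dirQ, Pi.smul_apply, Pi.sub_apply, smul_eq_mul, add_assoc]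
    push_cast
    ring

theorem sum_abs_fdTerms (h : ℚ) (ds : List (Fin 4)) :
    ((fdTerms h ds).map fun cv => |(cv.1 : ℝ)|).sum = (2 / |(h : ℝ)|) ^ ds.length := by
  induction ds with
  | nil => simp [fdTerms]
  | cons d ds ih =>
    simp only [fdTerms, List.length_cons, pow_succ]
    rw [sum_map_flatMap, ← ih, ← List.sum_map_mul_right]
    congr 1
    apply List.map_congr_left
    intro cv _
    simp only [stepT, List.map_cons, List.map_nil, List.sum_cons, List.sum_nil, add_zero]
    push_cast
    rw [abs_neg, abs_div]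
    ring

theorem abs_list_sum_sub_le (l : List (ℚ × QPt)) (a b : QPt → ℝ) (ε : ℝ)
    (hab : ∀ v, |a v - b v| ≤ ε) :
    |(l.map fun cv => (cv.1 : ℝ) * a cv.2).sum - (l.map fun cv => (cv.1 : ℝ) * b cv.2).sum|
      ≤ (l.map fun cv => |(cv.1 : ℝ)|).sum * ε := by
  induction l with
  | nil => simp
  | cons cv l ih =>
    simp only [List.map_cons, List.sum_cons]
    have e : (cv.1 : ℝ) * a cv.2 + (l.map fun cv => (cv.1 : ℝ) * a cv.2).sum
        - ((cv.1 : ℝ) * b cv.2 + (l.map fun cv => (cv.1 : ℝ) * b cv.2).sum)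
        = (cv.1 : ℝ) * (a cv.2 - b cv.2)
          + ((l.map fun cv => (cv.1 : ℝ) * a cv.2).sum
            - (l.map fun cv => (cv.1 : ℝ) * b cv.2).sum) := by ring
    rw [e, add_mul]
    refine (abs_add_le _ _).trans (add_le_add ?_ ih)
    rw [abs_mul]
    exact mul_le_mul_of_nonneg_left (hab _) (abs_nonneg _)

/-! ### The evaluator -/

/-- `Σ_i bound (ds with the i-th entry doubled)`. -/
def fdS (bound : List (Fin 4) → ℕ) (ds : List (Fin 4)) : ℕ :=
  ∑ i ∈ Finset.range ds.length, bound (dbl ds i)

/-- The inverse step. -/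
def fdN (bound : List (Fin 4) → ℕ) (ds : List (Fin 4)) (n : ℕ) : ℕ :=
  2 * (n + 1) * (fdS bound ds + 1)

/-- The precision requested from the value approximator. -/
def fdPrec (bound : List (Fin 4) → ℕ) (ds : List (Fin 4)) (n : ℕ) : ℕ :=
  2 * (n + 1) * (2 * fdN bound ds n) ^ ds.length

/-- The finite-difference evaluator built from a value approximator `E₀` and derivative bounds. -/
def fdEval (E₀ : (ℚ × (Fin 3 → ℚ)) × ℕ → (Fin 3 → ℚ)) (bound : List (Fin 4) → ℕ)
    (x : List (Fin 4) × (ℚ × (Fin 3 → ℚ)) × ℕ) : Fin 3 → ℚ :=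
  fun j => ((fdTerms ((fdN bound x.1 x.2.2 : ℚ))⁻¹ x.1).map
    fun cv => cv.1 * E₀ (x.2.1 + cv.2, fdPrec bound x.1 x.2.2) j).sum

theorem fdEval_spec (F : Field) (hF : ContDiff ℝ ∞ F)
    (E₀ : (ℚ × (Fin 3 → ℚ)) × ℕ → (Fin 3 → ℚ))
    (hval : ∀ (t : ℚ) (q : Fin 3 → ℚ) (n : ℕ) (j : Fin 3),
      |F ((t : ℝ), ratPoint q) j - (E₀ ((t, q), n) j : ℝ)| ≤ 1 / ((n : ℝ) + 1))
    (bound : List (Fin 4) → ℕ)
    (hbound : ∀ (ds : List (Fin 4)) (p : ℝ × (Fin 3 → ℝ)) (j : Fin 3),
      |mixedDeriv ds F p j| ≤ (bound ds : ℝ))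
    (ds : List (Fin 4)) (t : ℚ) (q : Fin 3 → ℚ) (n : ℕ) (j : Fin 3) :
    |mixedDeriv ds F ((t : ℝ), ratPoint q) j - (fdEval E₀ bound (ds, (t, q), n) j : ℝ)|
      ≤ 1 / ((n : ℝ) + 1) := by
  set S : ℕ := fdS bound ds with hS
  set N : ℕ := fdN bound ds n with hN
  set P : ℕ := fdPrec bound ds n with hP
  have hNpos : (0 : ℝ) < (N : ℝ) := by
    have : 0 < N := by rw [hN]; unfold fdN; positivity
    exact_mod_cast this
  have hn1 : (0 : ℝ) < (n : ℝ) + 1 := by positivity
  have hNeq : (N : ℝ) = 2 * ((n : ℝ) + 1) * ((S : ℝ) + 1) := by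
    rw [hN]; unfold fdN; push_cast; ring
  have hPeq : (P : ℝ) = 2 * ((n : ℝ) + 1) * (2 * (N : ℝ)) ^ ds.length := by
    rw [hP]; unfold fdPrec; push_cast; ring
  have hcast : (((N : ℚ)⁻¹ : ℚ) : ℝ) = (N : ℝ)⁻¹ := by push_cast; rfl
  -- part A: difference quotient versus derivative
  have hA : |fdOp (N : ℝ)⁻¹ ds F (toR (t, q)) j - mixedDeriv ds F (toR (t, q)) j|
      ≤ 1 / (2 * ((n : ℝ) + 1)) := by
    have h1 := fd_error F hF (fun ds => (bound ds : ℝ)) hbound (N : ℝ)⁻¹ (inv_pos.mpr hNpos) ds
      (toR (t, q)) j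
    refine h1.trans ?_
    have hsum : (∑ i ∈ Finset.range ds.length, (bound (dbl ds i) : ℝ)) = (S : ℝ) := by
      rw [hS]; unfold fdS; push_cast; rfl
    rw [hsum, inv_mul_le_iff₀ hNpos, hNeq]
    have hS0 : (0 : ℝ) ≤ (S : ℝ) := Nat.cast_nonneg _
    rw [show 2 * ((n : ℝ) + 1) * ((S : ℝ) + 1) * (1 / (2 * ((n : ℝ) + 1))) = (S : ℝ) + 1 by
      field_simp]
    linarith
  -- part B: signed sum of exact values versus signed sum of approximate values
  have hB : |fdOp (N : ℝ)⁻¹ ds F (toR (t, q)) j - (fdEval E₀ bound (ds, (t, q), n) j : ℝ)|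
      ≤ 1 / (2 * ((n : ℝ) + 1)) := by
    have e1 := fdOp_apply_eq_sum ((N : ℚ)⁻¹) ds F (toR (t, q)) j
    rw [hcast] at e1
    have e2 : (fdEval E₀ bound (ds, (t, q), n) j : ℝ)
        = ((fdTerms ((N : ℚ)⁻¹) ds).map
            fun cv => (cv.1 : ℝ) * (E₀ ((t, q) + cv.2, P) j : ℝ)).sum := by
      unfold fdEval
      rw [Rat.cast_list_sum, List.map_map]
      congr 1
      apply List.map_congr_left
      intro cv _
      simp only [Function.comp_apply]
      push_cast
      rfl
    rw [e1, e2]
    have h3 := abs_list_sum_sub_le (fdTerms ((N : ℚ)⁻¹) ds)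
      (fun v => F (toR (t, q) + toR v) j) (fun v => (E₀ ((t, q) + v, P) j : ℝ))
      (1 / ((P : ℝ) + 1)) (fun v => by
        have := hval ((t, q) + v).1 ((t, q) + v).2 P j
        rw [← toR_add]
        exact this)
    refine h3.trans ?_
    rw [sum_abs_fdTerms, hcast, abs_of_pos (inv_pos.mpr hNpos)]
    have hpow : (2 / (N : ℝ)⁻¹) ^ ds.length = (2 * (N : ℝ)) ^ ds.length := by
      congr 1
      field_simp
    rw [hpow]
    have hpos : (0 : ℝ) < (2 * (N : ℝ)) ^ ds.length := by positivity
    have hP1 : (0 : ℝ) < (P : ℝ) + 1 := by positivity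
    rw [mul_one_div, div_le_div_iff₀ hP1 (by positivity)]
    rw [hPeq]
    nlinarith
  have e : mixedDeriv ds F ((t : ℝ), ratPoint q) j - (fdEval E₀ bound (ds, (t, q), n) j : ℝ)
      = -(fdOp (N : ℝ)⁻¹ ds F (toR (t, q)) j - mixedDeriv ds F (toR (t, q)) j)
        + (fdOp (N : ℝ)⁻¹ ds F (toR (t, q)) j - (fdEval E₀ bound (ds, (t, q), n) j : ℝ)) := by
    simp only [toR]
    ring
  rw [e]
  refine (abs_add_le _ _).trans ?_
  rw [abs_neg]
  have : 1 / ((n : ℝ) + 1) = 1 / (2 * ((n : ℝ) + 1)) + 1 / (2 * ((n : ℝ) + 1)) := by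
    field_simp
    ring
  rw [this]
  exact add_le_add hA hB

/-! ### Computability of the evaluator -/

section computability

open Crest.Agent.Helper82

theorem computable_dirQ : Computable dirQ := (Primrec.dom_finite dirQ).to_comp

theorem computable_qpt_add : Computable₂ (fun p v : QPt => p + v) := by
  have h1 : Computable (fun x : QPt × QPt => x.1.1 + x.2.1) :=
    rat_add.comp (Computable.fst.comp Computable.fst) (Computable.fst.comp Computable.snd)
  have h2 : Computable (fun x : QPt × QPt => (fun j => x.1.2 j + x.2.2 j : Fin 3 → ℚ)) :=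
    computable_pi fun j => rat_add.comp
      (Computable.fin_app.comp (Computable.snd.comp Computable.fst) (Computable.const j))
      (Computable.fin_app.comp (Computable.snd.comp Computable.snd) (Computable.const j))
  exact (h1.pair h2).of_eq fun x => rfl

theorem computable_qpt_smul : Computable₂ (fun (h : ℚ) (v : QPt) => h • v) := by
  have h1 : Computable (fun x : ℚ × QPt => x.1 * x.2.1) :=
    rat_mul.comp Computable.fst (Computable.fst.comp Computable.snd)
  have h2 : Computable (fun x : ℚ × QPt => (fun j => x.1 * x.2.2 j : Fin 3 → ℚ)) :=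
    computable_pi fun j => rat_mul.comp Computable.fst
      (Computable.fin_app.comp (Computable.snd.comp Computable.snd) (Computable.const j))
  exact (h1.pair h2).of_eq fun x => rfl

theorem computable_stepT :
    Computable (fun x : (ℚ × Fin 4) × (ℚ × QPt) => stepT x.1.1 x.1.2 x.2) := by
  have hh : Computable (fun x : (ℚ × Fin 4) × (ℚ × QPt) => x.1.1) :=
    Computable.fst.comp Computable.fst
  have hd : Computable (fun x : (ℚ × Fin 4) × (ℚ × QPt) => x.1.2) :=
    Computable.snd.comp Computable.fst
  have hc : Computable (fun x : (ℚ × Fin 4) × (ℚ × QPt) => x.2.1) :=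
    Computable.fst.comp Computable.snd
  have hv : Computable (fun x : (ℚ × Fin 4) × (ℚ × QPt) => x.2.2) :=
    Computable.snd.comp Computable.snd
  have hq : Computable (fun x : (ℚ × Fin 4) × (ℚ × QPt) => x.2.1 / x.1.1) := rat_div.comp hc hh
  have hshift : Computable (fun x : (ℚ × Fin 4) × (ℚ × QPt) => x.2.2 + x.1.1 • dirQ x.1.2) :=
    computable_qpt_add.comp hv (computable_qpt_smul.comp hh (computable_dirQ.comp hd))
  have hnq : Computable (fun x : (ℚ × Fin 4) × (ℚ × QPt) => -(x.2.1 / x.1.1)) := rat_neg.comp hq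
  exact (Computable.list_cons.comp (hq.pair hshift)
    (Computable.list_cons.comp (hnq.pair hv) (Computable.const []))).of_eq fun x => rfl

theorem fdTerms_eq_foldr (h : ℚ) (ds : List (Fin 4)) :
    fdTerms h ds = ds.foldr (fun d acc => acc.flatMap (stepT h d)) [(1, 0)] := by
  induction ds with
  | nil => rfl
  | cons d ds ih => simp [fdTerms, ih]

theorem computable_fdTerms : Computable (fun x : ℚ × List (Fin 4) => fdTerms x.1 x.2) := by
  have hstep : Computable₂ (fun (x : ℚ × List (Fin 4)) (p : Fin 4 × List (ℚ × QPt)) =>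
      p.2.flatMap (stepT x.1 p.1)) := by
    refine computable_list_flatMap
      (f := fun y : (ℚ × List (Fin 4)) × (Fin 4 × List (ℚ × QPt)) => y.2.2)
      (g := fun y cv => stepT y.1.1 y.2.1 cv) (Computable.snd.comp Computable.snd) ?_
    have ha : Computable
        (fun y : ((ℚ × List (Fin 4)) × (Fin 4 × List (ℚ × QPt))) × (ℚ × QPt) =>
          ((y.1.1.1, y.1.2.1), y.2)) :=
      ((Computable.fst.comp (Computable.fst.comp Computable.fst)).pair
        (Computable.fst.comp (Computable.snd.comp Computable.fst))).pair Computable.snd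
    have h0 := computable_stepT.comp ha
    exact h0
  have key : Computable (fun x : ℚ × List (Fin 4) =>
      x.2.foldr (fun d acc => acc.flatMap (stepT x.1 d)) [((1 : ℚ), (0 : QPt))]) :=
    computable_list_foldr (f := fun x : ℚ × List (Fin 4) => x.2)
      (g := fun _ => [((1 : ℚ), (0 : QPt))])
      (h := fun x p => p.2.flatMap (stepT x.1 p.1)) Computable.snd
      (Computable.const [((1 : ℚ), (0 : QPt))]) hstep
  exact key.of_eq fun x => (fdTerms_eq_foldr x.1 x.2).symm

theorem computable_dbl : Computable₂ dbl := by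
  have h1 : Computable (fun x : List (Fin 4) × ℕ => x.1.take (x.2 + 1)) :=
    (Primrec.list_take.to_comp).comp (Computable.succ.comp Computable.snd) Computable.fst
  have h2 : Computable (fun x : List (Fin 4) × ℕ => x.1.drop x.2) :=
    (Primrec.list_drop.to_comp).comp Computable.snd Computable.fst
  exact Computable.list_append.comp h1 h2

theorem computable_fdS {bound : List (Fin 4) → ℕ} (hb : Computable bound) :
    Computable (fdS bound) :=
  computable_sum_range computable_nat_add Computable.list_length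
    (g := fun ds i => bound (dbl ds i)) (hb.comp computable_dbl)

theorem computable_fdN {bound : List (Fin 4) → ℕ} (hb : Computable bound) :
    Computable₂ (fdN bound) := by
  have hS : Computable (fun x : List (Fin 4) × ℕ => fdS bound x.1) :=
    (computable_fdS hb).comp Computable.fst
  have h1 : Computable (fun x : List (Fin 4) × ℕ => 2 * (x.2 + 1)) :=
    computable_nat_mul.comp (Computable.const 2) (Computable.succ.comp Computable.snd)
  exact computable_nat_mul.comp h1 (Computable.succ.comp hS)

theorem computable_fdPrec {bound : List (Fin 4) → ℕ} (hb : Computable bound) :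
    Computable₂ (fdPrec bound) := by
  have hN : Computable (fun x : List (Fin 4) × ℕ => fdN bound x.1 x.2) := computable_fdN hb
  have h1 : Computable (fun x : List (Fin 4) × ℕ => 2 * (x.2 + 1)) :=
    computable_nat_mul.comp (Computable.const 2) (Computable.succ.comp Computable.snd)
  have h2 : Computable (fun x : List (Fin 4) × ℕ => (2 * fdN bound x.1 x.2) ^ x.1.length) :=
    computable_nat_pow.comp (computable_nat_mul.comp (Computable.const 2) hN)
      (Computable.list_length.comp Computable.fst)
  exact computable_nat_mul.comp h1 h2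

theorem computable_fdEval {E₀ : (ℚ × (Fin 3 → ℚ)) × ℕ → (Fin 3 → ℚ)}
    {bound : List (Fin 4) → ℕ} (hE₀ : Computable E₀) (hb : Computable bound) :
    Computable (fdEval E₀ bound) := by
  apply computable_pi
  intro j
  have hds : Computable (fun x : List (Fin 4) × QPt × ℕ => x.1) := Computable.fst
  have hp : Computable (fun x : List (Fin 4) × QPt × ℕ => x.2.1) :=
    Computable.fst.comp Computable.snd
  have hn : Computable (fun x : List (Fin 4) × QPt × ℕ => x.2.2) :=
    Computable.snd.comp Computable.snd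
  have hN : Computable (fun x : List (Fin 4) × QPt × ℕ => fdN bound x.1 x.2.2) :=
    (computable_fdN hb).comp hds hn
  have hP : Computable (fun x : List (Fin 4) × QPt × ℕ => fdPrec bound x.1 x.2.2) :=
    (computable_fdPrec hb).comp hds hn
  have hh : Computable (fun x : List (Fin 4) × QPt × ℕ => ((fdN bound x.1 x.2.2 : ℚ))⁻¹) :=
    rat_inv.comp (rat_natCast.comp hN)
  have hterms : Computable
      (fun x : List (Fin 4) × QPt × ℕ => fdTerms ((fdN bound x.1 x.2.2 : ℚ))⁻¹ x.1) :=
    computable_fdTerms.comp (hh.pair hds)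
  have hg : Computable₂ (fun (x : List (Fin 4) × QPt × ℕ) (cv : ℚ × QPt) =>
      cv.1 * E₀ (x.2.1 + cv.2, fdPrec bound x.1 x.2.2) j) := by
    have h1 : Computable (fun y : (List (Fin 4) × QPt × ℕ) × (ℚ × QPt) => y.1.2.1 + y.2.2) :=
      computable_qpt_add.comp (hp.comp Computable.fst) (Computable.snd.comp Computable.snd)
    have h2 : Computable (fun y : (List (Fin 4) × QPt × ℕ) × (ℚ × QPt) =>
        E₀ (y.1.2.1 + y.2.2, fdPrec bound y.1.1 y.1.2.2)) :=
      hE₀.comp (h1.pair (hP.comp Computable.fst))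
    exact rat_mul.comp (Computable.fst.comp Computable.snd)
      (Computable.fin_app.comp h2 (Computable.const j))
  exact computable_list_sum rat_add hterms hg

end computability

/-- **WP-A3** (statement of `Crest.Agent.Helper21.Spec.effective_of_values_bounds`):
a smooth field whose values at rational points are computably approximable and whose mixed
derivatives are computably bounded is effective. -/
theorem effective_of_values_bounds (F : Field) (hF : ContDiff ℝ ∞ F)
    (E₀ : (ℚ × (Fin 3 → ℚ)) × ℕ → (Fin 3 → ℚ)) (hE₀ : Computable E₀)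
    (hval : ∀ (t : ℚ) (q : Fin 3 → ℚ) (n : ℕ) (j : Fin 3),
      |F ((t : ℝ), ratPoint q) j - (E₀ ((t, q), n) j : ℝ)| ≤ 1 / ((n : ℝ) + 1))
    (bound : List (Fin 4) → ℕ) (hb : Computable bound)
    (hbound : ∀ (ds : List (Fin 4)) (p : ℝ × (Fin 3 → ℝ)) (j : Fin 3),
      |mixedDeriv ds F p j| ≤ (bound ds : ℝ)) :
    Effective F :=
  ⟨fdEval E₀ bound, bound, computable_fdEval hE₀ hb, hb,
    fun ds t q n j => fdEval_spec F hF E₀ hval bound hbound ds t q n j, hbound⟩

end Crest.Agent.Helper84
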